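import Mathlib

/-!
# N6: the wall-crossing argument in the ring of power series
-/

set_option linter.unusedSectionVars false

namespace Vale.Agent.P291.N6

open MvPowerSeries

variable {I : Type*} [Fintype I] [DecidableEq I]

/-- pairing of a character with a dimension vector -/
def ell (ν : I → ℤ) (b : I →₀ ℕ) : ℤ := ∑ i, ν i * (b i : ℤ)

theorem ell_add (ν : I → ℤ) (b c : I →₀ ℕ) : ell ν (b + c) = ell ν b + ell ν c := by
  unfold ell
  rw [← Finset.sum_add_distrib]
  refine Finset.sum_congr rfl fun i _ => ?_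
  rw [Finsupp.add_apply]
  push_cast
  ring

theorem ell_zero (ν : I → ℤ) : ell ν 0 = 0 := by simp [ell]

/-- the generating series of a function -/
def ser (f : (I →₀ ℕ) → ℚ) : MvPowerSeries I ℚ := f

theorem coeff_ser (f : (I →₀ ℕ) → ℚ) (b : I →₀ ℕ) : coeff b (ser f) = f b := rfl

/-- the inverse of a series supported in a half space -/
theorem inv_supp (ν : I → ℤ) (φ : MvPowerSeries I ℚ)
    (h : ∀ b, coeff b φ ≠ 0 → 0 ≤ ell ν b) (b : I →₀ ℕ) :
    coeff b φ⁻¹ ≠ 0 → 0 ≤ ell ν b := by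
  refine WellFoundedLT.induction (motive := fun b => coeff b φ⁻¹ ≠ 0 → 0 ≤ ell ν b) b ?_
  intro b ih hb
  rw [coeff_inv] at hb
  split_ifs at hb with h0
  · rw [h0, ell_zero]
  · have h1 := right_ne_zero_of_mul hb
    obtain ⟨x, hx, hx'⟩ := Finset.exists_ne_zero_of_sum_ne_zero h1
    split_ifs at hx' with h2
    · have h3 := h x.1 (left_ne_zero_of_mul hx')
      have h4 := ih x.2 h2 (right_ne_zero_of_mul hx')
      rw [Finset.HasAntidiagonal.mem_antidiagonal] at hx
      rw [← hx, ell_add]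
      omega
    · exact absurd rfl hx'

/-- the wall-crossing argument -/
theorem wall (ν : I → ℤ) (v : I →₀ ℕ) (A F S P M P' M' : (I →₀ ℕ) → ℚ)
    (hA : ∀ b, A b = ∑ p ∈ Finset.HasAntidiagonal.antidiagonal b, P p.1 * M p.2)
    (hF : ∀ b, F b = ∑ p ∈ Finset.HasAntidiagonal.antidiagonal b, A p.1 * S p.2)
    (hF' : ∀ b, F b = (∑ p ∈ Finset.HasAntidiagonal.antidiagonal b, P' p.1 * M p.2) +
      ∑ p ∈ Finset.HasAntidiagonal.antidiagonal b, P p.1 * M' p.2)
    (hP0 : P 0 = 1) (hM0 : M 0 = 1)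
    (hP : ∀ b, P b ≠ 0 → ell ν b ≤ 0) (hM : ∀ b, M b ≠ 0 → 0 ≤ ell ν b)
    (hP' : ∀ b, P' b ≠ 0 → ell ν b < ell ν v) (hM' : ∀ b, M' b ≠ 0 → ell ν v ≤ ell ν b)
    (hgen : ∀ c ≤ v, c ≠ 0 → M' (v - c) ≠ 0 → coeff c (ser M)⁻¹ ≠ 0 →
      ell ν c ≠ 0) :
    S v = M' v := by
  let fA : MvPowerSeries I ℚ := ser A
  let fF : MvPowerSeries I ℚ := ser F
  let fS : MvPowerSeries I ℚ := ser S
  let fP : MvPowerSeries I ℚ := ser P
  let fM : MvPowerSeries I ℚ := ser M
  let fP' : MvPowerSeries I ℚ := ser P'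
  let fM' : MvPowerSeries I ℚ := ser M'
  have e1 : fA = fP * fM := by
    ext b
    rw [coeff_mul]
    exact hA b
  have e2 : fF = fA * fS := by
    ext b
    rw [coeff_mul]
    exact hF b
  have e3 : fF = fP' * fM + fP * fM' := by
    ext b
    rw [map_add, coeff_mul, coeff_mul]
    exact hF' b
  have cP : constantCoeff fP = 1 := by
    rw [← coeff_zero_eq_constantCoeff]; exact hP0
  have cM : constantCoeff fM = 1 := by
    rw [← coeff_zero_eq_constantCoeff]; exact hM0
  have iP : fP * fP⁻¹ = 1 := MvPowerSeries.mul_inv_cancel _ (by rw [cP]; exact one_ne_zero)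
  have iM : fM * fM⁻¹ = 1 := MvPowerSeries.mul_inv_cancel _ (by rw [cM]; exact one_ne_zero)
  have e4 : fS = fP' * fP⁻¹ + fM' * fM⁻¹ := by
    have e5 : fP * fM * fS = fP' * fM + fP * fM' := by rw [← e1, ← e2, e3]
    calc fS = (fP * fP⁻¹) * (fM * fM⁻¹) * fS := by rw [iP, iM]; ring
      _ = (fP * fM * fS) * (fP⁻¹ * fM⁻¹) := by ring
      _ = (fP' * fM + fP * fM') * (fP⁻¹ * fM⁻¹) := by rw [e5]
      _ = fP' * fP⁻¹ * (fM * fM⁻¹) + fM' * fM⁻¹ * (fP * fP⁻¹) := by ring
      _ = fP' * fP⁻¹ + fM' * fM⁻¹ := by rw [iP, iM]; ring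
  have hPinv : ∀ c, coeff c fP⁻¹ ≠ 0 → ell ν c ≤ 0 := by
    intro c hc
    have h1 := inv_supp (fun i => - ν i) fP (fun b hb => by
      have h2 := hP b hb
      have h3 : ell (fun i => - ν i) b = - ell ν b := by
        unfold ell
        rw [← Finset.sum_neg_distrib]
        exact Finset.sum_congr rfl fun i _ => by ring
      rw [h3]
      omega) c hc
    have h3 : ell (fun i => - ν i) c = - ell ν c := by
      unfold ell
      rw [← Finset.sum_neg_distrib]
      exact Finset.sum_congr rfl fun i _ => by ring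
    rw [h3] at h1
    omega
  have hMinv : ∀ c, coeff c fM⁻¹ ≠ 0 → 0 ≤ ell ν c := fun c hc => inv_supp ν fM hM c hc
  have h1 : coeff v (fP' * fP⁻¹) = 0 := by
    rw [coeff_mul]
    apply Finset.sum_eq_zero
    intro p hp
    rw [Finset.HasAntidiagonal.mem_antidiagonal] at hp
    by_contra hne
    have h2 := hP' p.1 (left_ne_zero_of_mul hne)
    have h3 := hPinv p.2 (right_ne_zero_of_mul hne)
    have h4 := ell_add ν p.1 p.2
    rw [hp] at h4
    omega
  have h2 : coeff v (fM' * fM⁻¹) = M' v := by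
    rw [coeff_mul, Finset.sum_eq_single (v, 0)]
    · rw [coeff_zero_eq_constantCoeff, constantCoeff_inv, cM, inv_one, mul_one]
      rfl
    · intro p hp hne
      rw [Finset.HasAntidiagonal.mem_antidiagonal] at hp
      by_contra hcon
      have h2 := hM' p.1 (left_ne_zero_of_mul hcon)
      have h3 := hMinv p.2 (right_ne_zero_of_mul hcon)
      have h4 := ell_add ν p.1 p.2
      rw [hp] at h4
      have h5 : p.2 ≠ 0 := by
        intro h0
        apply hne
        rw [h0, add_zero] at hp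
        exact Prod.ext hp h0
      have h7 : v - p.2 = p.1 := by rw [← hp, add_tsub_cancel_right]
      have h6 := hgen p.2 (by rw [← hp]; exact le_add_self) h5
        (by rw [h7]; exact left_ne_zero_of_mul hcon) (right_ne_zero_of_mul hcon)
      omega
    · intro h
      exact absurd (Finset.HasAntidiagonal.mem_antidiagonal.2 (add_zero v)) h
  have h3 : S v = coeff v fS := rfl
  rw [h3, e4, map_add, h1, h2, zero_add]

end Vale.Agent.P291.N6
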