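import Vale.Agent.P291.H415.N6.TRec
import Vale.Agent.P291.H415.N6.Wall

/-!
# N6: the number of semistable points does not depend on the regular character
-/

namespace Vale.Agent.P291.N3

set_option linter.unusedSectionVars false

open LinearMap MvPowerSeries

open N6 (ell)

variable {k : Type*} [Field k]
variable {I E : Type*} [Fintype E] [Fintype I] [DecidableEq I] {Q : Qv I E}

theorem frFV (v : I →₀ ℕ) (w : ℕ) (j : Option I) :
    Module.finrank k (FV k v w j) = dm v w j := by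
  simp

theorem hdFV (n m v : I →₀ ℕ) (w : ℕ) (h : n + m = v) (j : Option I) :
    Module.finrank k (FV k n 0 j) + Module.finrank k (FV k m w j)
      = Module.finrank k (FV k v w j) := by
  simp only [frFV]
  rcases j with _ | i
  · show 0 + w = w
    omega
  · show n i + m i = v i
    rw [← h]; rfl

/-- the stability function of the character `ν` for the dimension vector `v` -/
def cn (ν : I → ℤ) (v : I →₀ ℕ) : Option I → ℤ
  | none => - ell ν v
  | some i => ν i

theorem th_top (ν : I → ℤ) (v b : I →₀ ℕ) (w : ℕ) :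
    th (cn ν v) (fun j => (⊤ : Submodule k (FV k b w j))) = ell ν b - w * ell ν v := by
  unfold th
  rw [Fintype.sum_option]
  have h1 : ∀ j, (Module.finrank k (⊤ : Submodule k (FV k b w j)) : ℤ) = dm b w j := by
    intro j
    rw [finrank_top, frFV]
  have h2 : ∀ i, cn ν v (some i) * (Module.finrank k (⊤ : Submodule k (FV k b w (some i))) : ℤ)
      = ν i * (b i : ℤ) := by
    intro i
    rw [h1]
    rfl
  rw [Finset.sum_congr rfl fun i _ => h2 i, h1]
  show - ell ν v * (w : ℤ) + ell ν b = _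
  ring

section sums

variable {V₁ V₂ : Option I → Type*} [∀ j, AddCommGroup (V₁ j)] [∀ j, Module k (V₁ j)]
  [∀ j, AddCommGroup (V₂ j)] [∀ j, Module k (V₂ j)]
  [∀ j, Module.Finite k (V₁ j)] [∀ j, Module.Finite k (V₂ j)]

/-- direct sums of torsion free representations -/
theorem Tp_sum (c : Option I → ℤ) {x₁ : Rep k Q V₁} {y₁ : Red k Q V₁} {x₂ : Rep k Q V₂}
    {y₂ : Red k Q V₂} (h1 : Tp c x₁ y₁ (fun _ => ⊥)) (h2 : Tp c x₂ y₂ (fun _ => ⊥)) :
    Tp c (upR x₁ (0 : Off k Q V₁ V₂).1 x₂) (upD y₁ (0 : Off k Q V₁ V₂).2 y₂) (fun _ => ⊥) := by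
  refine ⟨Sb_bot _ _, fun U hU => ?_⟩
  have h3 := (h1.2 _ (Sb_comap_inl hU)).1
  have h4 := (h2.2 _ (Sb_map_snd hU)).1
  rw [th_bot] at h3 h4
  rw [th_split c U, th_bot]
  exact ⟨by linarith, fun _ j => bot_le⟩

theorem muZero_sum {x₁ : Rep k Q V₁} {y₁ : Red k Q V₁} {x₂ : Rep k Q V₂}
    {y₂ : Red k Q V₂} (h1 : MuZero x₁ y₁) (h2 : MuZero x₂ y₂) :
    MuZero (upR x₁ (0 : Off k Q V₁ V₂).1 x₂) (upD y₁ (0 : Off k Q V₁ V₂).2 y₂) := by
  rw [muZero_up]
  refine ⟨h1, h2, fun ψ => ?_⟩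
  unfold off
  apply Finset.sum_eq_zero
  intro a _
  have e1 : (0 : Off k Q V₁ V₂).1 a = 0 := rfl
  have e2 : (0 : Off k Q V₁ V₂).2 a = 0 := rfl
  rw [e1, e2, LinearMap.zero_comp, LinearMap.zero_comp, map_zero, map_zero, add_zero]

end sums

/-- the isomorphism with the standard space -/
theorem exists_iso (n m v : I →₀ ℕ) (w : ℕ) (h : n + m = v) :
    Nonempty (∀ j, (FV k n 0 j × FV k m w j) ≃ₗ[k] FV k v w j) :=
  ⟨fun j => LinearEquiv.ofFinrankEq _ _ (by rw [Module.finrank_prod]; exact hdFV n m v w h j)⟩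

theorem FF_sum (c : Option I → ℤ) (n m v : I →₀ ℕ) (w : ℕ) (h : n + m = v)
    (h1 : Nonempty (FF k Q c (FV k n 0))) (h2 : Nonempty (FF k Q c (FV k m w))) :
    Nonempty (FF k Q c (FV k v w)) := by
  obtain ⟨⟨⟨x₁, y₁⟩, h3, h4⟩⟩ := h1
  obtain ⟨⟨⟨x₂, y₂⟩, h5, h6⟩⟩ := h2
  obtain ⟨φ⟩ := exists_iso (k := k) n m v w h
  refine ⟨⟨(repE φ (upR x₁ (0 : Off k Q _ _).1 x₂), redE φ (upD y₁ (0 : Off k Q _ _).2 y₂)),
    (muZero_transport φ _ _).2 (muZero_sum h3 h5), ?_⟩⟩
  have h7 := Tp_transport c φ (Tp_sum c h4 h6)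
  have e : (fun j => (⊥ : Submodule k (FV k n 0 j × FV k m w j)).map (φ j).toLinearMap)
      = fun j => (⊥ : Submodule k (FV k v w j)) := by
    funext j
    exact Submodule.map_bot _
  rw [e] at h7
  exact h7

variable (Q) in
/-- `ν` is regular over `k`: the semistable points of the zero set of the moment map are stable -/
def RegK (k : Type*) [Field k] (ν : I → ℤ) (v : I →₀ ℕ) : Prop :=
  ∀ p : Rep k Q (FV k v 1) × Red k Q (FV k v 1), MuZero p.1 p.2 →
    Tp (cn ν v) p.1 p.2 (fun _ => ⊥) → ∀ U, Sb p.1 p.2 U → th (cn ν v) U = 0 →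
      (∀ j, U j = ⊥) ∨ (∀ j, U j = ⊤)

/-- a generic character is regular over every field -/
theorem regK_of_generic (k : Type*) [Field k] (ν : I → ℤ) (v : I →₀ ℕ)
    (h : ∀ c ≤ v, c ≠ 0 → ell ν c ≠ 0) : RegK Q k ν v := by
  intro p _ hp U hU h0
  let b : I →₀ ℕ := Finsupp.equivFunOnFinite.symm fun i => Module.finrank k (U (some i))
  have hb : ∀ i, b i = Module.finrank k (U (some i)) := fun i => rfl
  have hble : b ≤ v := fun i => by
    rw [hb]
    exact (Submodule.finrank_le _).trans (le_of_eq (frFV v 1 (some i)))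
  have hth : th (cn ν v) U = - ell ν v * Module.finrank k (U none) + ell ν b := by
    unfold th
    rw [Fintype.sum_option]
    rfl
  have hf : Module.finrank k (FV k v 1 none) = 1 := frFV _ _ _
  have hle := Submodule.finrank_le (U none)
  rcases Nat.lt_or_ge (Module.finrank k (U none)) 1 with h1 | h1
  · left
    have h2 : Module.finrank k (U none) = 0 := by omega
    rw [hth, h2] at h0
    have h3 : b = 0 := by
      by_contra hne
      exact h b hble hne (by simpa using h0)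
    rintro (_ | i)
    · exact Submodule.finrank_eq_zero.1 h2
    · apply Submodule.finrank_eq_zero.1
      rw [← hb, h3]
      rfl
  · right
    have h2 : Module.finrank k (U none) = 1 := by omega
    rw [hth, h2] at h0
    have h3 : v - b = 0 := by
      by_contra hne
      refine h (v - b) tsub_le_self hne ?_
      have h4 := N6.ell_add ν (v - b) b
      rw [tsub_add_cancel_of_le hble] at h4
      push_cast at h0
      linarith
    have h4 : b = v := le_antisymm hble (tsub_eq_zero_iff_le.1 h3)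
    rintro (_ | i)
    · apply Submodule.eq_top_of_finrank_eq
      rw [h2, hf]
    · apply Submodule.eq_top_of_finrank_eq
      rw [← hb, h4]
      exact (frFV v 1 (some i)).symm

section finite

variable [Finite k]

theorem nonempty_of_fz {c : Option I → ℤ} {V : Option I → Type*} [∀ j, AddCommGroup (V j)]
    [∀ j, Module k (V j)] (h : fz k Q c V ≠ 0) : Nonempty (FF k Q c V) := by
  unfold fz at h
  have h1 := left_ne_zero_of_mul (left_ne_zero_of_mul h)
  rw [Nat.cast_ne_zero] at h1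
  exact (Nat.card_ne_zero.1 h1).1

theorem nonempty_of_tz {c : Option I → ℤ} {V : Option I → Type*} [∀ j, AddCommGroup (V j)]
    [∀ j, Module k (V j)] (h : tz k Q c V ≠ 0) : Nonempty (TT k Q c V) := by
  unfold tz at h
  have h1 := left_ne_zero_of_mul (left_ne_zero_of_mul h)
  rw [Nat.cast_ne_zero] at h1
  exact (Nat.card_ne_zero.1 h1).1

theorem card_zero_aux (P : Rep k Q (FV k (0 : I →₀ ℕ) 0) × Red k Q (FV k (0 : I →₀ ℕ) 0) → Prop)
    (hP : ∀ p, P p) : Nat.card {p : Rep k Q (FV k (0 : I →₀ ℕ) 0) × Red k Q (FV k (0 : I →₀ ℕ) 0) //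
      P p} * Nat.card (Lie k (FV k (0 : I →₀ ℕ) 0)) =
    Nat.card (Rep k Q (FV k (0 : I →₀ ℕ) 0)) * Nat.card (Gau k (FV k (0 : I →₀ ℕ) 0)) := by
  have hs : ∀ j : Option I, Subsingleton (FV k (0 : I →₀ ℕ) 0 j) := by
    rintro (_ | i)
    · show Subsingleton (Fin 0 → k)
      infer_instance
    · show Subsingleton (Fin 0 → k)
      infer_instance
  have u1 : Nat.card {p : Rep k Q (FV k (0 : I →₀ ℕ) 0) × Red k Q (FV k (0 : I →₀ ℕ) 0) // P p}
      = 1 := by
    have : Unique {p : Rep k Q (FV k (0 : I →₀ ℕ) 0) × Red k Q (FV k (0 : I →₀ ℕ) 0) // P p} := by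
      refine ⟨⟨⟨(0, 0), hP _⟩⟩, ?_⟩
      rintro ⟨⟨x, y⟩, _⟩
      apply Subtype.ext
      apply Prod.ext
      · funext a; apply LinearMap.ext; intro v; exact (hs _).elim _ _
      · funext a; apply LinearMap.ext; intro v; exact (hs _).elim _ _
    exact Nat.card_unique
  have u2 : Nat.card (Lie k (FV k (0 : I →₀ ℕ) 0)) = 1 := by
    have : Unique (Lie k (FV k (0 : I →₀ ℕ) 0)) := by
      refine ⟨⟨0⟩, ?_⟩
      intro x
      funext a; apply LinearMap.ext; intro v; exact (hs _).elim _ _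
    exact Nat.card_unique
  have u3 : Nat.card (Rep k Q (FV k (0 : I →₀ ℕ) 0)) = 1 := by
    have : Unique (Rep k Q (FV k (0 : I →₀ ℕ) 0)) := by
      refine ⟨⟨0⟩, ?_⟩
      intro x
      funext a; apply LinearMap.ext; intro v; exact (hs _).elim _ _
    exact Nat.card_unique
  have u4 : Nat.card (Gau k (FV k (0 : I →₀ ℕ) 0)) = 1 := by
    have : Unique (Gau k (FV k (0 : I →₀ ℕ) 0)) := by
      refine ⟨⟨fun i => LinearEquiv.refl k _⟩, ?_⟩
      intro x
      funext a; apply LinearEquiv.ext; intro v; exact (hs _).elim _ _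
    exact Nat.card_unique
  rw [u1, u2, u3, u4]

theorem muZero_zero (p : Rep k Q (FV k (0 : I →₀ ℕ) 0) × Red k Q (FV k (0 : I →₀ ℕ) 0)) :
    MuZero p.1 p.2 := by
  intro ξ
  have hs : ∀ j : Option I, Subsingleton (FV k (0 : I →₀ ℕ) 0 j) := by
    rintro (_ | i)
    · show Subsingleton (Fin 0 → k)
      infer_instance
    · show Subsingleton (Fin 0 → k)
      infer_instance
  have h0 : dot ξ p.1 = 0 := by
    funext a; apply LinearMap.ext; intro v; exact (hs _).elim _ _
  unfold pair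
  rw [h0]
  apply Finset.sum_eq_zero
  intro a _
  show trace k _ (p.2 a ∘ₗ 0) = 0
  rw [LinearMap.comp_zero, map_zero]

theorem Tp_zero (c : Option I → ℤ)
    (p : Rep k Q (FV k (0 : I →₀ ℕ) 0) × Red k Q (FV k (0 : I →₀ ℕ) 0))
    (U : ∀ j, Submodule k (FV k (0 : I →₀ ℕ) 0 j)) : Tp c p.1 p.2 U := by
  have hs : ∀ j : Option I, Subsingleton (FV k (0 : I →₀ ℕ) 0 j) := by
    rintro (_ | i)
    · show Subsingleton (Fin 0 → k)
      infer_instance
    · show Subsingleton (Fin 0 → k)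
      infer_instance
  have h : ∀ U' : ∀ j, Submodule k (FV k (0 : I →₀ ℕ) 0 j), U' = U := by
    intro U'
    funext j
    exact Subsingleton.elim _ _
  refine ⟨?_, fun U' _ => ?_⟩
  · rw [← h (fun _ => ⊥)]
    exact Sb_bot _ _
  · rw [h U']
    exact ⟨le_rfl, fun _ j => le_rfl⟩

theorem tz_zero (c : Option I → ℤ) : tz k Q c (FV k (0 : I →₀ ℕ) 0) = 1 := by
  have h := card_zero_aux (k := k) (Q := Q)
    (fun p => MuZero p.1 p.2 ∧ Tp c p.1 p.2 (fun _ => ⊤)) (fun p => ⟨muZero_zero p, Tp_zero c p _⟩)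
  have h' : (Nat.card (TT k Q c (FV k (0 : I →₀ ℕ) 0)) : ℚ) *
      Nat.card (Lie k (FV k (0 : I →₀ ℕ) 0)) = Nat.card (Rep k Q (FV k (0 : I →₀ ℕ) 0)) *
      Nat.card (Gau k (FV k (0 : I →₀ ℕ) 0)) := by exact_mod_cast h
  unfold tz
  rw [h']
  exact div_self (mul_ne_zero (card_pos' (k := k) _) card_gau_ne)

theorem fz_zero (c : Option I → ℤ) : fz k Q c (FV k (0 : I →₀ ℕ) 0) = 1 := by
  have h := card_zero_aux (k := k) (Q := Q)
    (fun p => MuZero p.1 p.2 ∧ Tp c p.1 p.2 (fun _ => ⊥)) (fun p => ⟨muZero_zero p, Tp_zero c p _⟩)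
  have h' : (Nat.card (FF k Q c (FV k (0 : I →₀ ℕ) 0)) : ℚ) *
      Nat.card (Lie k (FV k (0 : I →₀ ℕ) 0)) = Nat.card (Rep k Q (FV k (0 : I →₀ ℕ) 0)) *
      Nat.card (Gau k (FV k (0 : I →₀ ℕ) 0)) := by exact_mod_cast h
  unfold fz
  rw [h']
  exact div_self (mul_ne_zero (card_pos' (k := k) _) card_gau_ne)

theorem FF_of_inv (c : Option I → ℤ) (b : I →₀ ℕ) :
    coeff b (N6.ser fun b => fz k Q c (FV k b 0))⁻¹ ≠ 0 →
      Nonempty (FF k Q c (FV k b 0)) := by
  refine WellFoundedLT.induction (motive := fun b =>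
    coeff b (N6.ser fun b => fz k Q c (FV k b 0))⁻¹ ≠ 0 →
      Nonempty (FF k Q c (FV k b 0))) b ?_
  intro b ih hb
  rw [coeff_inv] at hb
  split_ifs at hb with h0
  · rw [h0]
    exact ⟨⟨(0, 0), muZero_zero _, Tp_zero c _ _⟩⟩
  · have h1 := right_ne_zero_of_mul hb
    obtain ⟨x, hx, hx'⟩ := Finset.exists_ne_zero_of_sum_ne_zero h1
    split_ifs at hx' with h2
    · have h3 := ih x.2 h2 (right_ne_zero_of_mul hx')
      have h4 : fz k Q c (FV k x.1 0) ≠ 0 := left_ne_zero_of_mul hx'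
      rw [Finset.HasAntidiagonal.mem_antidiagonal] at hx
      exact FF_sum c x.1 x.2 b 0 hx (nonempty_of_fz h4) h3
    · exact absurd rfl hx'

/-- **N6**: for a character that is regular over `k`, the number of semistable points is the
number of stable points for the standard stability. -/
theorem sz_eq_fz (ν : I → ℤ) (v : I →₀ ℕ) (hreg : RegK Q k ν v) :
    sz k Q (FV k v 1) = fz k Q (cn ν v) (FV k v 1) := by
  refine N6.wall ν v (fun b => pz k Q (FV k b 0)) (fun b => pz k Q (FV k b 1))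
    (fun b => sz k Q (FV k b 1)) (fun b => tz k Q (cn ν v) (FV k b 0))
    (fun b => fz k Q (cn ν v) (FV k b 0)) (fun b => tz k Q (cn ν v) (FV k b 1))
    (fun b => fz k Q (cn ν v) (FV k b 1)) (fun b => pz_recT0 (cn ν v) b)
    (fun b => pz_rec b 1) (fun b => pz_recT1 (cn ν v) b) (tz_zero _) (fz_zero _) ?_ ?_ ?_ ?_ ?_
  · intro b hb
    obtain ⟨⟨p, _, h1⟩⟩ := nonempty_of_tz hb
    have h2 := (h1.2 _ (Sb_bot _ _)).1
    rw [th_bot, th_top] at h2
    push_cast at h2
    linarith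
  · intro b hb
    obtain ⟨⟨p, _, h1⟩⟩ := nonempty_of_fz hb
    have h2 := (h1.2 _ (Sb_top _ _)).1
    rw [th_bot, th_top] at h2
    push_cast at h2
    linarith
  · intro b hb
    obtain ⟨⟨p, _, h1⟩⟩ := nonempty_of_tz hb
    obtain ⟨h2, h3⟩ := h1.2 _ (Sb_bot _ _)
    rw [th_bot, th_top] at h2 h3
    push_cast at h2 h3
    rcases lt_or_eq_of_le (show ell ν b ≤ ell ν v by linarith) with h4 | h4
    · exact h4
    · exfalso
      have h5 := h3 (by linarith) none
      have h6 : Module.finrank k (FV k b 1 none) = 1 := frFV _ _ _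
      have h7 : (⊤ : Submodule k (FV k b 1 none)) = ⊥ := le_bot_iff.1 h5
      have h8 : Module.finrank k (⊤ : Submodule k (FV k b 1 none)) = 0 := by
        rw [h7, finrank_bot]
      rw [finrank_top, h6] at h8
      exact one_ne_zero h8
  · intro b hb
    obtain ⟨⟨p, _, h1⟩⟩ := nonempty_of_fz hb
    have h2 := (h1.2 _ (Sb_top _ _)).1
    rw [th_bot, th_top] at h2
    push_cast at h2
    linarith
  · intro c hc hc0 hb hinv hell
    have h1 := FF_of_inv (cn ν v) c hinv
    have h2 := nonempty_of_fz hb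
    obtain ⟨⟨⟨x₁, y₁⟩, h3, h4⟩⟩ := h1
    obtain ⟨⟨⟨x₂, y₂⟩, h5, h6⟩⟩ := h2
    obtain ⟨φ⟩ := exists_iso (k := k) c (v - c) v 1 (add_tsub_cancel_of_le hc)
    have h7 := Tp_transport (cn ν v) φ (Tp_sum (cn ν v) h4 h6)
    have e : (fun j => (⊥ : Submodule k (FV k c 0 j × FV k (v - c) 1 j)).map (φ j).toLinearMap)
        = fun j => (⊥ : Submodule k (FV k v 1 j)) := by
      funext j
      exact Submodule.map_bot _
    rw [e] at h7
    have h8 := hreg (repE φ (upR x₁ (0 : Off k Q _ _).1 x₂), redE φ (upD y₁ (0 : Off k Q _ _).2 y₂))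
      ((muZero_transport φ _ _).2 (muZero_sum h3 h5)) h7
      (fun j => (K1 k (FV k c 0) (FV k (v - c) 1) j).map (φ j).toLinearMap)
      (Sb_transport φ (K1_Sb _ _ _ _ _)) (by
        rw [th_transport, th_K1, th_top, hell]
        push_cast
        ring)
    have h9 : ∀ j, Module.finrank k ((K1 k (FV k c 0) (FV k (v - c) 1) j).map
        (φ j).toLinearMap) = dm c 0 j := by
      intro j
      rw [LinearEquiv.finrank_map_eq (φ j), finrank_K1, frFV]
    rcases h8 with h8 | h8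
    · apply hc0
      ext i
      have h10 := h9 (some i)
      have h11 := h8 (some i)
      rw [h11, finrank_bot] at h10
      exact h10.symm
    · have h10 := h9 none
      have h11 := h8 none
      rw [h11, finrank_top, frFV] at h10
      exact one_ne_zero h10

/-- the same for the numbers of points -/
theorem card_FF (ν : I → ℤ) (v : I →₀ ℕ) (hreg : RegK Q k ν v) :
    Nat.card (FF k Q (cn ν v) (FV k v 1)) = Nat.card (ST k Q (FV k v 1)) := by
  have h := sz_eq_fz ν v hreg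
  unfold sz fz at h
  have h1 : (Nat.card (Rep k Q (FV k v 1)) : ℚ) ≠ 0 := card_pos' (k := k) _
  have h2 : (Nat.card (Gau k (FV k v 1)) : ℚ) ≠ 0 := card_gau_ne
  have h3 : (Nat.card (Lie k (FV k v 1)) : ℚ) ≠ 0 := card_pos' (k := k) _
  have h4 : (Nat.card (ST k Q (FV k v 1)) : ℚ) * Nat.card (Lie k (FV k v 1))
      = Nat.card (FF k Q (cn ν v) (FV k v 1)) * Nat.card (Lie k (FV k v 1)) := by
    exact (div_left_inj' (mul_ne_zero h1 h2)).1 h
  have h5 := mul_right_cancel₀ h3 h4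
  exact_mod_cast h5.symm

end finite

end Vale.Agent.P291.N3
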