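import Vale.Agent.P291.H415.N6.TStd
import Vale.Agent.P291.H415.N3.Rec

/-!
# N6: counting by the dimension of the torsion part
-/

namespace Vale.Agent.P291.N3

set_option linter.unusedSectionVars false

open LinearMap

variable {k : Type*} [Field k] [Finite k]
variable {I E : Type*} [Fintype E] [Fintype I] {Q : Qv I E}

section general

variable {V₁ V₂ V : Option I → Type*} [∀ j, AddCommGroup (V₁ j)] [∀ j, Module k (V₁ j)]
  [∀ j, AddCommGroup (V₂ j)] [∀ j, Module k (V₂ j)]
  [∀ j, AddCommGroup (V j)] [∀ j, Module k (V j)]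
  [∀ j, Module.Finite k (V₁ j)] [∀ j, Module.Finite k (V₂ j)] [∀ j, Module.Finite k (V j)]

theorem hn_countT (c : Option I → ℤ) (e0 : (V₁ none × V₂ none) ≃ₗ[k] V none)
    (hdim : ∀ i : I, Module.finrank k (V₁ (some i)) + Module.finrank k (V₂ (some i))
      = Module.finrank k (V (some i))) :
    Nat.card {p : Rep k Q V × Red k Q V // MuZero p.1 p.2 ∧
        tau c p.1 p.2 none = (K1 k V₁ V₂ none).map e0.toLinearMap ∧
        ∀ i, Module.finrank k (tau c p.1 p.2 (some i)) = Module.finrank k (V₁ (some i))} *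
      (Nat.card (Gau k V₁) * Nat.card (Gau k V₂) * Nat.card (Psi k V₂ V₁))
    = Nat.card (Gau k V) *
      Nat.card {p : Rep k Q (fun j => V₁ j × V₂ j) × Red k Q (fun j => V₁ j × V₂ j) //
        MuZero p.1 p.2 ∧ Tp c p.1 p.2 (K1 k V₁ V₂)} := by
  have hφ : ∀ i : I, Nonempty ((V₁ (some i) × V₂ (some i)) ≃ₗ[k] V (some i)) := fun i =>
    ⟨LinearEquiv.ofFinrankEq _ _ (by rw [Module.finrank_prod, hdim])⟩
  rw [← card_isoF (W := fun j => V₁ j × V₂ j) (fun i => (hφ i).some)]
  apply double_count
    (τ := fun φ : ∀ i : I, (V₁ (some i) × V₂ (some i)) ≃ₗ[k] V (some i) =>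
      prE (Q := Q) (gx (W := fun j => V₁ j × V₂ j) e0 φ))
  · rintro ⟨x, y⟩ ⟨hmu, hnone, hfin⟩
    simp only at hmu hfin hnone
    -- adapted isomorphisms
    have hc : ∀ i : I, ∃ K : Submodule k (V (some i)), IsCompl (tau c x y (some i)) K := fun i =>
      Submodule.exists_isCompl _
    choose K hK using hc
    have hg : ∀ i : I, ∃ g : (V₁ (some i) × V₂ (some i)) ≃ₗ[k] V (some i),
        (K1 k V₁ V₂ (some i)).map g.toLinearMap = tau c x y (some i) := by
      intro i
      have h1 := Submodule.finrank_add_eq_of_isCompl (hK i)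
      obtain ⟨g, hg1, _⟩ := exists_adapted (A := V₁ (some i)) (B := V₂ (some i))
        (tau c x y (some i)) (K i) (hK i) (hfin i) (by
          have := hdim i
          have := hfin i
          omega)
      exact ⟨g, hg1⟩
    choose g hg using hg
    rw [← card_stab1 (k := k) (V₁ := V₁) (V₂ := V₂)]
    have key : ∀ φ : ∀ i : I, (V₁ (some i) × V₂ (some i)) ≃ₗ[k] V (some i),
        (MuZero ((prE (Q := Q) (gx (W := fun j => V₁ j × V₂ j) e0 φ)).symm (x, y)).1
          ((prE (Q := Q) (gx (W := fun j => V₁ j × V₂ j) e0 φ)).symm (x, y)).2 ∧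
        Tp c ((prE (Q := Q) (gx (W := fun j => V₁ j × V₂ j) e0 φ)).symm (x, y)).1
          ((prE (Q := Q) (gx (W := fun j => V₁ j × V₂ j) e0 φ)).symm (x, y)).2
          (K1 k V₁ V₂)) ↔
        ∀ i, (K1 k V₁ V₂ (some i)).map (φ i).toLinearMap = tau c x y (some i) := by
      intro φ
      rw [prE_symm_apply]
      simp only
      rw [← tau_eq_iff]
      constructor
      · rintro ⟨_, h⟩ i
        have h1 := congrFun h (some i)
        rw [tau_transport] at h1
        rw [← h1]
        ext v
        simp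
      · intro h
        refine ⟨(muZero_transport _ x y).2 hmu, ?_⟩
        funext j
        rcases j with _ | i
        · rw [tau_transport, hnone]
          ext v
          simp
        · rw [tau_transport, ← h i]
          ext v
          simp
    refine Nat.card_congr ?_
    exact
      { toFun := fun φ => ⟨fun i => (φ.1 i).trans (g i).symm, fun i => by
          have h1 := (key φ.1).1 φ.2 i
          rw [LinearEquiv.coe_trans, Submodule.map_comp, h1, ← hg i]
          ext v; simp⟩
        invFun := fun s => ⟨fun i => (s.1 i).trans (g i), by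
          rw [key]
          intro i
          rw [LinearEquiv.coe_trans, Submodule.map_comp, s.2 i, hg i]⟩
        left_inv := fun φ => by
          apply Subtype.ext
          funext i
          ext v
          simp
        right_inv := fun s => by
          apply Subtype.ext
          funext i
          ext v <;> simp }
  · rintro ⟨x, y⟩ hD φ ⟨h1, h2⟩
    apply hD
    rw [prE_symm_apply] at h1 h2
    simp only at h1 h2
    rw [← tau_eq_iff] at h2
    refine ⟨(muZero_transport _ x y).1 h1, ?_, fun i => ?_⟩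
    · have h3 := congrFun h2 none
      rw [tau_transport] at h3
      show tau c x y none = _
      rw [← h3]
      ext v
      simp
    · have h3 := congrFun h2 (some i)
      rw [tau_transport] at h3
      have h4 := congrArg (fun U : Submodule k (V₁ (some i) × V₂ (some i)) =>
        Module.finrank k U) h3
      simp only [finrank_K1] at h4
      rw [← h4]
      exact (LinearEquiv.finrank_map_eq (φ i).symm (tau c x y (some i))).symm

variable (k Q) in
/-- number of torsion representations, normalised -/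
noncomputable def tz (c : Option I → ℤ) (V : Option I → Type*) [∀ j, AddCommGroup (V j)]
    [∀ j, Module k (V j)] : ℚ := (Nat.card (TT k Q c V) * Nat.card (Lie k V)) /
  (Nat.card (Rep k Q V) * Nat.card (Gau k V))

variable (k Q) in
/-- number of torsion free representations, normalised -/
noncomputable def fz (c : Option I → ℤ) (V : Option I → Type*) [∀ j, AddCommGroup (V j)]
    [∀ j, Module k (V j)] : ℚ := (Nat.card (FF k Q c V) * Nat.card (Lie k V)) /
  (Nat.card (Rep k Q V) * Nat.card (Gau k V))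

theorem hn_ratT (c : Option I → ℤ) (e0 : (V₁ none × V₂ none) ≃ₗ[k] V none)
    (hd : ∀ j : Option I, Module.finrank k (V₁ j) + Module.finrank k (V₂ j)
    = Module.finrank k (V j)) :
    (Nat.card {p : Rep k Q V × Red k Q V // MuZero p.1 p.2 ∧
        tau c p.1 p.2 none = (K1 k V₁ V₂ none).map e0.toLinearMap ∧
        ∀ i, Module.finrank k (tau c p.1 p.2 (some i)) = Module.finrank k (V₁ (some i))} : ℚ)
      * (Nat.card (Lie k V) / (Nat.card (Rep k Q V) * Nat.card (Gau k V)))
    = tz k Q c V₁ * fz k Q c V₂ := by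
  have h1 := hn_countT (Q := Q) (V₁ := V₁) (V₂ := V₂) (V := V) c e0 (fun i => hd (some i))
  have h2 := card_stdT (k := k) (Q := Q) (V₁ := V₁) (V₂ := V₂) c
  have h3 := card_rep_split (Q := Q) hd
  have h4 := card_lie_split hd
  have h1' : (Nat.card {p : Rep k Q V × Red k Q V // MuZero p.1 p.2 ∧
        tau c p.1 p.2 none = (K1 k V₁ V₂ none).map e0.toLinearMap ∧
        ∀ i, Module.finrank k (tau c p.1 p.2 (some i)) = Module.finrank k (V₁ (some i))} : ℚ) *
      (Nat.card (Gau k V₁) * Nat.card (Gau k V₂) * Nat.card (Psi k V₂ V₁))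
    = Nat.card (Gau k V) *
      Nat.card {p : Rep k Q (fun j => V₁ j × V₂ j) × Red k Q (fun j => V₁ j × V₂ j) //
        MuZero p.1 p.2 ∧ Tp c p.1 p.2 (K1 k V₁ V₂)} := by exact_mod_cast h1
  have h2' : (Nat.card {p : Rep k Q (fun j => V₁ j × V₂ j) × Red k Q (fun j => V₁ j × V₂ j) //
        MuZero p.1 p.2 ∧ Tp c p.1 p.2 (K1 k V₁ V₂)} : ℚ) * Nat.card (Psi k V₁ V₂)
      = Nat.card (TT k Q c V₁) * Nat.card (FF k Q c V₂) * Nat.card (Off k Q V₁ V₂) := by
    exact_mod_cast h2
  have h3' : (Nat.card (Rep k Q V) : ℚ) = Nat.card (Rep k Q V₁) * Nat.card (Rep k Q V₂)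
      * Nat.card (Off k Q V₁ V₂) := by exact_mod_cast h3
  have h4' : (Nat.card (Lie k V) : ℚ) = Nat.card (Lie k V₁) * Nat.card (Lie k V₂)
      * (Nat.card (Psi k V₁ V₂) * Nat.card (Psi k V₂ V₁)) := by exact_mod_cast h4
  unfold tz fz
  rw [h3', h4']
  have g1 : (Nat.card (Rep k Q V₁) : ℚ) ≠ 0 := card_pos' (k := k) _
  have g2 : (Nat.card (Rep k Q V₂) : ℚ) ≠ 0 := card_pos' (k := k) _
  have g3 : (Nat.card (Off k Q V₁ V₂) : ℚ) ≠ 0 := card_pos' (k := k) _
  have g4 : (Nat.card (Psi k V₁ V₂) : ℚ) ≠ 0 := card_pos' (k := k) _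
  have g5 : (Nat.card (Psi k V₂ V₁) : ℚ) ≠ 0 := card_pos' (k := k) _
  have g6 : (Nat.card (Gau k V₁) : ℚ) ≠ 0 := card_gau_ne
  have g7 : (Nat.card (Gau k V₂) : ℚ) ≠ 0 := card_gau_ne
  have g8 : (Nat.card (Gau k V) : ℚ) ≠ 0 := card_gau_ne
  generalize (Nat.card {p : Rep k Q V × Red k Q V // MuZero p.1 p.2 ∧
        tau c p.1 p.2 none = (K1 k V₁ V₂ none).map e0.toLinearMap ∧
        ∀ i, Module.finrank k (tau c p.1 p.2 (some i)) = Module.finrank k (V₁ (some i))} : ℚ) = x
    at h1' ⊢
  generalize (Nat.card {p : Rep k Q (fun j => V₁ j × V₂ j) × Red k Q (fun j => V₁ j × V₂ j) //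
        MuZero p.1 p.2 ∧ Tp c p.1 p.2 (K1 k V₁ V₂)} : ℚ) = y at h1' h2'
  have hy : y = Nat.card (TT k Q c V₁) * Nat.card (FF k Q c V₂) * Nat.card (Off k Q V₁ V₂)
      / Nat.card (Psi k V₁ V₂) := by
    rw [eq_div_iff g4]; exact h2'
  have hx : x = Nat.card (Gau k V) * y / (Nat.card (Gau k V₁) * Nat.card (Gau k V₂)
      * Nat.card (Psi k V₂ V₁)) := by
    rw [eq_div_iff (mul_ne_zero (mul_ne_zero g6 g7) g5)]; exact h1'
  rw [hx, hy]
  field_simp

end general

end Vale.Agent.P291.N3
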