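import Vale.Agent.P291.H415.N6.THN

/-!
# N6: the recursions for the torsion pair
-/

namespace Vale.Agent.P291.N3

set_option linter.unusedSectionVars false

open LinearMap

variable {k : Type*} [Field k] [Finite k]
variable {I E : Type*} [Fintype E] [Fintype I] [DecidableEq I] {Q : Qv I E}

instance (v : I →₀ ℕ) : Subsingleton (FV k v 0 none) := by
  show Subsingleton (Fin 0 → k)
  infer_instance

/-- the framing isomorphism, framing in the subspace -/
def e0' (n m v : I →₀ ℕ) (w : ℕ) : (FV k n w none × FV k m 0 none) ≃ₗ[k] FV k v w none where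
  toFun p := p.1
  invFun u := (u, 0)
  left_inv := by
    rintro ⟨a, b⟩
    exact Prod.ext rfl (Subsingleton.elim _ _)
  right_inv := fun _ => rfl
  map_add' := fun _ _ => rfl
  map_smul' := fun _ _ => rfl

theorem hd' (n m v : I →₀ ℕ) (w : ℕ) (h : n + m = v) (j : Option I) :
    Module.finrank k (FV k n w j) + Module.finrank k (FV k m 0 j)
      = Module.finrank k (FV k v w j) := by
  simp only [finrank_FV]
  rcases j with _ | i
  · show w + 0 = w
    omega
  · show n i + m i = v i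
    rw [← h]; rfl

theorem map_e0 (n m v : I →₀ ℕ) (w : ℕ) :
    (K1 k (FV k n 0) (FV k m w) none).map (e0 (k := k) n m v w).toLinearMap = ⊥ := by
  rw [eq_bot_iff]
  rintro _ ⟨u, hu, rfl⟩
  rw [SetLike.mem_coe, mem_K1] at hu
  rw [Submodule.mem_bot]
  exact hu

theorem map_e0' (n m v : I →₀ ℕ) (w : ℕ) :
    (K1 k (FV k n w) (FV k m 0) none).map (e0' (k := k) n m v w).toLinearMap = ⊤ := by
  rw [eq_top_iff]
  intro u _
  exact ⟨(u, 0), ⟨u, rfl⟩, rfl⟩

variable (Q) in
/-- number of points with torsion part of dimension `n` and given framing part -/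
noncomputable def cnt (c : Option I → ℤ) (v : I →₀ ℕ) (w : ℕ)
    (S : Submodule k (FV k v w none)) (n : I →₀ ℕ) : ℕ :=
  Nat.card {p : Rep k Q (FV k v w) × Red k Q (FV k v w) // MuZero p.1 p.2 ∧
    tau c p.1 p.2 none = S ∧ ∀ i, Module.finrank k (tau c p.1 p.2 (some i)) = n i}

theorem cnt_bot (c : Option I → ℤ) (v : I →₀ ℕ) (w : ℕ) (n m : I →₀ ℕ) (h : n + m = v) :
    (cnt Q c v w (⊥ : Submodule k (FV k v w none)) n : ℚ)
      * (Nat.card (Lie k (FV k v w)) / (Nat.card (Rep k Q (FV k v w)) *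
        Nat.card (Gau k (FV k v w)))) = tz k Q c (FV k n 0) * fz k Q c (FV k m w) := by
  have h3 := hn_ratT (k := k) (Q := Q) (V₁ := FV k n 0) (V₂ := FV k m w) (V := FV k v w)
    c (e0 n m v w) (hd n m v w h)
  rw [← h3, map_e0]
  have : ∀ i, Module.finrank k (FV k n 0 (some i)) = n i := fun i => finrank_FV _ _ _
  simp only [this]
  rfl

theorem cnt_top (c : Option I → ℤ) (v : I →₀ ℕ) (w : ℕ) (n m : I →₀ ℕ) (h : n + m = v) :
    (cnt Q c v w (⊤ : Submodule k (FV k v w none)) n : ℚ)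
      * (Nat.card (Lie k (FV k v w)) / (Nat.card (Rep k Q (FV k v w)) *
        Nat.card (Gau k (FV k v w)))) = tz k Q c (FV k n w) * fz k Q c (FV k m 0) := by
  have h3 := hn_ratT (k := k) (Q := Q) (V₁ := FV k n w) (V₂ := FV k m 0) (V := FV k v w)
    c (e0' n m v w) (hd' n m v w h)
  rw [← h3, map_e0']
  have : ∀ i, Module.finrank k (FV k n w (some i)) = n i := fun i => finrank_FV _ _ _
  simp only [this]
  rfl

theorem card_ZZ_eq (c : Option I → ℤ) (v : I →₀ ℕ) (w : ℕ) (P : Submodule k (FV k v w none)) :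
    Nat.card {p : Rep k Q (FV k v w) × Red k Q (FV k v w) // MuZero p.1 p.2 ∧
      tau c p.1 p.2 none = P} =
    ∑ p ∈ Finset.HasAntidiagonal.antidiagonal v, cnt Q c v w P p.1 := by
  have h1 := card_eq_sum_antidiagonal
    (Z := {p : Rep k Q (FV k v w) × Red k Q (FV k v w) // MuZero p.1 p.2 ∧
      tau c p.1 p.2 none = P}) v
    (fun z i => Module.finrank k (tau c z.1.1 z.1.2 (some i)))
    (fun z i => (Submodule.finrank_le _).trans (le_of_eq (finrank_FV v w (some i))))
  rw [h1]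
  refine Finset.sum_congr rfl fun p _ => ?_
  unfold cnt
  refine Nat.card_congr ((Equiv.subtypeSubtypeEquivSubtypeInter
    (fun z : Rep k Q (FV k v w) × Red k Q (FV k v w) => MuZero z.1 z.2 ∧ tau c z.1 z.2 none = P)
    (fun z => ∀ i, Module.finrank k (tau c z.1 z.2 (some i)) = p.1 i)).trans ?_)
  refine Equiv.subtypeEquivRight fun z => ?_
  rw [and_assoc]

/-- unframed recursion -/
theorem pz_recT0 (c : Option I → ℤ) (v : I →₀ ℕ) :
    pz k Q (FV k v 0) = ∑ p ∈ Finset.HasAntidiagonal.antidiagonal v,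
      tz k Q c (FV k p.1 0) * fz k Q c (FV k p.2 0) := by
  have h1 := card_ZZ_eq (k := k) (Q := Q) c v 0 ⊥
  have h0 : Nat.card (ZZ k Q (FV k v 0)) =
      Nat.card {p : Rep k Q (FV k v 0) × Red k Q (FV k v 0) // MuZero p.1 p.2 ∧
      tau c p.1 p.2 none = ⊥} := by
    refine Nat.card_congr (Equiv.subtypeEquivRight fun z => ?_)
    have : tau c z.1 z.2 none = ⊥ := Subsingleton.elim _ _
    simp [this]
  have h2 : pz k Q (FV k v 0) = (Nat.card (ZZ k Q (FV k v 0)) : ℚ) *
      (Nat.card (Lie k (FV k v 0)) / (Nat.card (Rep k Q (FV k v 0)) *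
        Nat.card (Gau k (FV k v 0)))) := by
    unfold pz; ring
  rw [h2, h0, h1, Nat.cast_sum, Finset.sum_mul]
  refine Finset.sum_congr rfl fun p hp => ?_
  rw [Finset.HasAntidiagonal.mem_antidiagonal] at hp
  exact cnt_bot c v 0 p.1 p.2 hp

/-- framed recursion -/
theorem pz_recT1 (c : Option I → ℤ) (v : I →₀ ℕ) :
    pz k Q (FV k v 1) = (∑ p ∈ Finset.HasAntidiagonal.antidiagonal v,
      tz k Q c (FV k p.1 1) * fz k Q c (FV k p.2 0)) +
      ∑ p ∈ Finset.HasAntidiagonal.antidiagonal v,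
      tz k Q c (FV k p.1 0) * fz k Q c (FV k p.2 1) := by
  classical
  have h1 := card_ZZ_eq (k := k) (Q := Q) c v 1 ⊥
  have h1' := card_ZZ_eq (k := k) (Q := Q) c v 1 ⊤
  have hbt : ∀ S : Submodule k (FV k v 1 none), S = ⊥ ∨ S = ⊤ := by
    intro S
    have hf : Module.finrank k (FV k v 1 none) = 1 := finrank_FV _ _ _
    rcases Nat.lt_or_ge (Module.finrank k S) 1 with h | h
    · left
      exact Submodule.finrank_eq_zero.1 (by omega)
    · right
      apply Submodule.eq_top_of_finrank_eq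
      have := Submodule.finrank_le S
      omega
  have hne : (⊥ : Submodule k (FV k v 1 none)) ≠ ⊤ := by
    intro h
    have h2 : Module.finrank k (⊤ : Submodule k (FV k v 1 none)) = 1 := by
      rw [finrank_top]; exact finrank_FV _ _ _
    rw [← h, finrank_bot] at h2
    exact zero_ne_one h2
  have h0 : Nat.card (ZZ k Q (FV k v 1)) =
      Nat.card {p : Rep k Q (FV k v 1) × Red k Q (FV k v 1) // MuZero p.1 p.2 ∧
        tau c p.1 p.2 none = ⊤} +
      Nat.card {p : Rep k Q (FV k v 1) × Red k Q (FV k v 1) // MuZero p.1 p.2 ∧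
        tau c p.1 p.2 none = ⊥} := by
    rw [← Nat.card_sum]
    refine Nat.card_congr ((Equiv.subtypeEquivRight fun z => ?_).trans
      (subtypeOrEquiv (fun z : Rep k Q (FV k v 1) × Red k Q (FV k v 1) =>
        MuZero z.1 z.2 ∧ tau c z.1 z.2 none = ⊤)
      (fun z => MuZero z.1 z.2 ∧ tau c z.1 z.2 none = ⊥) ?_))
    · rcases hbt (tau c z.1 z.2 none) with h | h
      · rw [h]; simp [hne]
      · rw [h]; simp [hne.symm]
    · rw [Pi.disjoint_iff]
      intro z
      rw [Prop.disjoint_iff]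
      rintro ⟨h3, h4⟩
      exact hne (h4.2.symm.trans h3.2)
  have h2 : pz k Q (FV k v 1) = (Nat.card (ZZ k Q (FV k v 1)) : ℚ) *
      (Nat.card (Lie k (FV k v 1)) / (Nat.card (Rep k Q (FV k v 1)) *
        Nat.card (Gau k (FV k v 1)))) := by
    unfold pz; ring
  rw [h2, h0, h1, h1', Nat.cast_add, Nat.cast_sum, Nat.cast_sum, add_mul, Finset.sum_mul,
    Finset.sum_mul]
  congr 1
  · refine Finset.sum_congr rfl fun p hp => ?_
    rw [Finset.HasAntidiagonal.mem_antidiagonal] at hp
    exact cnt_top c v 1 p.1 p.2 hp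
  · refine Finset.sum_congr rfl fun p hp => ?_
    rw [Finset.HasAntidiagonal.mem_antidiagonal] at hp
    exact cnt_bot c v 1 p.1 p.2 hp

end Vale.Agent.P291.N3
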