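import Vale.Agent.P291.H415.N6.Tor

/-!
# N6: block triangular solutions with prescribed torsion part
-/

namespace Vale.Agent.P291.N3

set_option linter.unusedSectionVars false

open LinearMap

variable {k : Type*} [Field k]
variable {I E : Type*} [Fintype E] [Fintype I] {Q : Qv I E}

theorem finrank_split {A B : Type*} [AddCommGroup A] [Module k A] [AddCommGroup B] [Module k B]
    [Module.Finite k A] [Module.Finite k B] (U : Submodule k (A × B)) :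
    Module.finrank k U = Module.finrank k (U.comap (inl k A B))
      + Module.finrank k (U.map (snd k A B)) := by
  have h1 := LinearMap.finrank_range_add_finrank_ker ((snd k A B).domRestrict U)
  rw [LinearMap.range_domRestrict] at h1
  have e : (U.comap (inl k A B)) ≃ₗ[k] LinearMap.ker ((snd k A B).domRestrict U) :=
    { toFun := fun a => ⟨⟨(a.1, 0), a.2⟩, by simp⟩
      invFun := fun u => ⟨u.1.1.1, by
        have h := u.2
        rw [LinearMap.mem_ker, LinearMap.domRestrict_apply, snd_apply] at h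
        rw [Submodule.mem_comap, inl_apply, ← h]
        exact u.1.2⟩
      left_inv := fun a => rfl
      right_inv := fun u => by
        have h := u.2
        rw [LinearMap.mem_ker, LinearMap.domRestrict_apply, snd_apply] at h
        apply Subtype.ext
        apply Subtype.ext
        exact Prod.ext rfl h.symm
      map_add' := fun a b => by
        apply Subtype.ext
        apply Subtype.ext
        exact Prod.ext rfl (add_zero 0).symm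
      map_smul' := fun c a => by
        apply Subtype.ext
        apply Subtype.ext
        exact Prod.ext rfl (smul_zero c).symm }
  rw [e.finrank_eq, ← h1]
  ring

variable {V₁ V₂ : Option I → Type*} [∀ j, AddCommGroup (V₁ j)] [∀ j, Module k (V₁ j)]
  [∀ j, AddCommGroup (V₂ j)] [∀ j, Module k (V₂ j)]
  [∀ j, Module.Finite k (V₁ j)] [∀ j, Module.Finite k (V₂ j)]

theorem K1_Sb (x₁ : Rep k Q V₁) (y₁ : Red k Q V₁) (x₂ : Rep k Q V₂)
    (y₂ : Red k Q V₂) (o : Off k Q V₁ V₂) :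
    Sb (upR x₁ o.1 x₂) (upD y₁ o.2 y₂) (K1 k V₁ V₂) := by
  refine ⟨?_, ?_⟩
  · rintro a v hv
    rw [mem_K1] at hv ⊢
    show x₂ a v.2 = 0
    rw [hv, map_zero]
  · rintro a v hv
    rw [mem_K1] at hv ⊢
    show y₂ a v.2 = 0
    rw [hv, map_zero]

theorem th_split (c : Option I → ℤ) (U : ∀ j, Submodule k (V₁ j × V₂ j)) :
    th c U = th c (fun j => (U j).comap (inl k (V₁ j) (V₂ j)))
      + th c (fun j => (U j).map (snd k (V₁ j) (V₂ j))) := by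
  unfold th
  rw [← Finset.sum_add_distrib]
  refine Finset.sum_congr rfl fun j _ => ?_
  rw [finrank_split (U j)]
  push_cast
  ring

theorem K1_comap (j : Option I) : (K1 k V₁ V₂ j).comap (inl k (V₁ j) (V₂ j)) = ⊤ := by
  rw [eq_top_iff]
  rintro u _
  exact ⟨u, rfl⟩

theorem K1_map (j : Option I) : (K1 k V₁ V₂ j).map (snd k (V₁ j) (V₂ j)) = ⊥ := by
  rw [eq_bot_iff]
  rintro _ ⟨v, hv, rfl⟩
  rw [SetLike.mem_coe, mem_K1] at hv
  rw [Submodule.mem_bot]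
  exact hv

theorem th_K1 (c : Option I → ℤ) :
    th c (K1 k V₁ V₂) = th c (fun j => (⊤ : Submodule k (V₁ j))) := by
  have h1 : (fun j => (K1 k V₁ V₂ j).comap (inl k (V₁ j) (V₂ j)))
      = fun j => (⊤ : Submodule k (V₁ j)) := funext fun j => K1_comap j
  have h2 : (fun j => (K1 k V₁ V₂ j).map (snd k (V₁ j) (V₂ j)))
      = fun j => (⊥ : Submodule k (V₂ j)) := funext fun j => K1_map j
  rw [th_split, h1, h2, th_bot, add_zero]

theorem Sb_comap_snd {x₁ : Rep k Q V₁} {y₁ : Red k Q V₁} {x₂ : Rep k Q V₂} {y₂ : Red k Q V₂}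
    {o : Off k Q V₁ V₂} {U : ∀ j, Submodule k (V₂ j)} (hU : Sb x₂ y₂ U) :
    Sb (upR x₁ o.1 x₂) (upD y₁ o.2 y₂) (fun j => (U j).comap (snd k (V₁ j) (V₂ j))) :=
  ⟨fun a v hv => hU.1 a v.2 hv, fun a v hv => hU.2 a v.2 hv⟩

theorem Sb_map_snd {x₁ : Rep k Q V₁} {y₁ : Red k Q V₁} {x₂ : Rep k Q V₂} {y₂ : Red k Q V₂}
    {o : Off k Q V₁ V₂} {U : ∀ j, Submodule k (V₁ j × V₂ j)}
    (hU : Sb (upR x₁ o.1 x₂) (upD y₁ o.2 y₂) U) :
    Sb x₂ y₂ (fun j => (U j).map (snd k (V₁ j) (V₂ j))) := by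
  refine ⟨?_, ?_⟩
  · rintro a _ ⟨v, hv, rfl⟩
    exact ⟨_, hU.1 a v hv, rfl⟩
  · rintro a _ ⟨v, hv, rfl⟩
    exact ⟨_, hU.2 a v hv, rfl⟩

theorem upR_inl (x₁ : Rep k Q V₁) (x₁₂ : ∀ a, V₂ (some (Q.src a)) →ₗ[k] V₁ (Q.tgt a))
    (x₂ : Rep k Q V₂) (a : E) (u : V₁ (some (Q.src a))) :
    upR x₁ x₁₂ x₂ a (u, 0) = (x₁ a u, 0) := by
  show (x₁ a u + x₁₂ a 0, x₂ a 0) = _
  rw [map_zero, map_zero, add_zero]

theorem upD_inl (y₁ : Red k Q V₁) (y₁₂ : ∀ a, V₂ (Q.tgt a) →ₗ[k] V₁ (some (Q.src a)))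
    (y₂ : Red k Q V₂) (a : E) (u : V₁ (Q.tgt a)) :
    upD y₁ y₁₂ y₂ a (u, 0) = (y₁ a u, 0) := by
  show (y₁ a u + y₁₂ a 0, y₂ a 0) = _
  rw [map_zero, map_zero, add_zero]

theorem Sb_comap_inl {x₁ : Rep k Q V₁} {y₁ : Red k Q V₁} {x₂ : Rep k Q V₂} {y₂ : Red k Q V₂}
    {o : Off k Q V₁ V₂} {U : ∀ j, Submodule k (V₁ j × V₂ j)}
    (hU : Sb (upR x₁ o.1 x₂) (upD y₁ o.2 y₂) U) :
    Sb x₁ y₁ (fun j => (U j).comap (inl k (V₁ j) (V₂ j))) := by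
  refine ⟨?_, ?_⟩
  · intro a u hu
    have h1 := hU.1 a (u, 0) hu
    rw [upR_inl] at h1
    exact h1
  · intro a u hu
    have h1 := hU.2 a (u, 0) hu
    rw [upD_inl] at h1
    exact h1

theorem Sb_map_inl {x₁ : Rep k Q V₁} {y₁ : Red k Q V₁} {x₂ : Rep k Q V₂} {y₂ : Red k Q V₂}
    {o : Off k Q V₁ V₂} {U : ∀ j, Submodule k (V₁ j)} (hU : Sb x₁ y₁ U) :
    Sb (upR x₁ o.1 x₂) (upD y₁ o.2 y₂) (fun j => (U j).map (inl k (V₁ j) (V₂ j))) := by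
  refine ⟨?_, ?_⟩
  · rintro a _ ⟨u, hu, rfl⟩
    exact ⟨x₁ a u, hU.1 a u hu, (upR_inl _ _ _ a u).symm⟩
  · rintro a _ ⟨u, hu, rfl⟩
    exact ⟨y₁ a u, hU.2 a u hu, (upD_inl _ _ _ a u).symm⟩

theorem th_map_inl (c : Option I → ℤ) (U : ∀ j, Submodule k (V₁ j)) :
    th c (fun j => (U j).map (inl k (V₁ j) (V₂ j))) = th c U := by
  unfold th
  refine Finset.sum_congr rfl fun j _ => ?_
  rw [← (Submodule.equivMapOfInjective (inl k (V₁ j) (V₂ j)) LinearMap.inl_injective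
    (U j)).finrank_eq]

theorem th_comap_snd (c : Option I → ℤ) (U : ∀ j, Submodule k (V₂ j)) :
    th c (fun j => (U j).comap (snd k (V₁ j) (V₂ j)))
      = th c (fun j => (⊤ : Submodule k (V₁ j))) + th c U := by
  rw [th_split]
  congr 1
  · congr 1
    funext j
    rw [eq_top_iff]
    rintro u _
    show (0 : V₂ j) ∈ U j
    exact Submodule.zero_mem _
  · congr 1
    funext j
    exact Submodule.map_comap_eq_of_surjective LinearMap.snd_surjective _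

/-- the torsion part of a block triangular representation -/
theorem tau_up_iff (c : Option I → ℤ) (x₁ : Rep k Q V₁) (y₁ : Red k Q V₁)
    (x₂ : Rep k Q V₂) (y₂ : Red k Q V₂) (o : Off k Q V₁ V₂) :
    Tp c (upR x₁ o.1 x₂) (upD y₁ o.2 y₂) (K1 k V₁ V₂) ↔
      Tp c x₁ y₁ (fun _ => ⊤) ∧ Tp c x₂ y₂ (fun _ => ⊥) := by
  constructor
  · rintro ⟨h1, h2⟩
    refine ⟨⟨Sb_top _ _, fun U hU => ?_⟩, ⟨Sb_bot _ _, fun U hU => ?_⟩⟩
    · obtain ⟨h3, h4⟩ := h2 _ (Sb_map_inl (x₂ := x₂) (y₂ := y₂) (o := o) hU)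
      rw [th_map_inl, th_K1] at h3 h4
      refine ⟨h3, fun he j u _ => ?_⟩
      have h5 : ((u, 0) : V₁ j × V₂ j) ∈ K1 k V₁ V₂ j := ⟨u, rfl⟩
      obtain ⟨u', hu', he'⟩ := h4 he j h5
      have : u' = u := congrArg Prod.fst he'
      rw [← this]
      exact hu'
    · obtain ⟨h3, h4⟩ := h2 _ (Sb_comap_snd (x₁ := x₁) (y₁ := y₁) (o := o) hU)
      rw [th_comap_snd, th_K1] at h3
      rw [th_bot]
      exact ⟨by linarith, fun _ j => bot_le⟩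
  · rintro ⟨⟨_, h1⟩, ⟨_, h2⟩⟩
    refine ⟨K1_Sb x₁ y₁ x₂ y₂ o, fun U hU => ?_⟩
    obtain ⟨h3, h4⟩ := h1 _ (Sb_comap_inl hU)
    obtain ⟨h5, _⟩ := h2 _ (Sb_map_snd hU)
    rw [th_bot] at h5
    have h6 := th_split c U
    rw [th_K1]
    refine ⟨by linarith, fun he j => ?_⟩
    have h7 := h4 (by linarith) j
    rintro _ ⟨u, rfl⟩
    exact h7 (Submodule.mem_top (x := u))

/-- no maps from torsion to torsion free representations -/
theorem comm_eq_zero' (c : Option I → ℤ) {x₁ : Rep k Q V₁} {y₁ : Red k Q V₁} {x₂ : Rep k Q V₂}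
    {y₂ : Red k Q V₂} (h1 : Tp c x₁ y₁ (fun _ => ⊤)) (h2 : Tp c x₂ y₂ (fun _ => ⊥))
    (ψ : Psi k V₁ V₂) (hψ : comm x₁ y₁ x₂ y₂ ψ = 0) : ψ = 0 := by
  have e1 := congrArg Prod.fst hψ
  have e2 := congrArg Prod.snd hψ
  have e3 : ∀ a v, ex2 ψ (Q.tgt a) (x₁ a v) = x₂ a (ψ (Q.src a) v) := by
    intro a v
    have h4 : (ex2 ψ (Q.tgt a) ∘ₗ x₁ a - x₂ a ∘ₗ ψ (Q.src a)) v = 0 := by
      have : ex2 ψ (Q.tgt a) ∘ₗ x₁ a - x₂ a ∘ₗ ψ (Q.src a) = 0 := congrFun e2 a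
      rw [this]; rfl
    rw [LinearMap.sub_apply, sub_eq_zero] at h4
    exact h4
  have e4 : ∀ a v, y₂ a (ex2 ψ (Q.tgt a) v) = ψ (Q.src a) (y₁ a v) := by
    intro a v
    have h4 : (y₂ a ∘ₗ ex2 ψ (Q.tgt a) - ψ (Q.src a) ∘ₗ y₁ a) v = 0 := by
      have : y₂ a ∘ₗ ex2 ψ (Q.tgt a) - ψ (Q.src a) ∘ₗ y₁ a = 0 := congrFun e1 a
      rw [this]; rfl
    rw [LinearMap.sub_apply, sub_eq_zero] at h4
    exact h4
  have hK : Sb x₁ y₁ (fun j => LinearMap.ker (ex2 ψ j)) := by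
    refine ⟨fun a u hu => ?_, fun a u hu => ?_⟩
    · rw [LinearMap.mem_ker] at hu ⊢
      have hu' : ψ (Q.src a) u = 0 := hu
      rw [e3, hu', map_zero]
    · rw [LinearMap.mem_ker] at hu ⊢
      show ψ (Q.src a) (y₁ a u) = 0
      rw [← e4, hu, map_zero]
  have hR : Sb x₂ y₂ (fun j => LinearMap.range (ex2 ψ j)) := by
    refine ⟨?_, ?_⟩
    · rintro a _ ⟨v, rfl⟩
      exact ⟨x₁ a v, e3 a v⟩
    · rintro a _ ⟨v, rfl⟩
      exact ⟨y₁ a v, (e4 a v).symm⟩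
  have h3 := (h2.2 _ hR).1
  rw [th_bot] at h3
  obtain ⟨h4, h5⟩ := h1.2 _ hK
  have h6 : th c (fun j => LinearMap.range (ex2 ψ j)) + th c (fun j => LinearMap.ker (ex2 ψ j))
      = th c (fun j => (⊤ : Submodule k (V₁ j))) := by
    unfold th
    rw [← Finset.sum_add_distrib]
    refine Finset.sum_congr rfl fun j _ => ?_
    have h7 := LinearMap.finrank_range_add_finrank_ker (ex2 ψ j)
    have h8 : (Module.finrank k (LinearMap.range (ex2 ψ j)) : ℤ)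
        + Module.finrank k (LinearMap.ker (ex2 ψ j)) = Module.finrank k (V₁ j) := by
      exact_mod_cast h7
    rw [← mul_add, h8, finrank_top]
  funext i
  have h9 := h5 (by linarith) (some i)
  ext v
  exact h9 (Submodule.mem_top (x := v))

section counts

variable (k Q)
variable (c : Option I → ℤ) (V : Option I → Type*) [∀ j, AddCommGroup (V j)] [∀ j, Module k (V j)]

/-- torsion representations -/
abbrev TT := {p : Rep k Q V × Red k Q V // MuZero p.1 p.2 ∧ Tp c p.1 p.2 (fun _ => ⊤)}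

/-- torsion free representations -/
abbrev FF := {p : Rep k Q V × Red k Q V // MuZero p.1 p.2 ∧ Tp c p.1 p.2 (fun _ => ⊥)}

end counts

variable [Finite k]

theorem card_off' (x₁ : Rep k Q V₁) (y₁ : Red k Q V₁) {x₂ : Rep k Q V₂} {y₂ : Red k Q V₂}
    (h : ∀ ψ, comm x₁ y₁ x₂ y₂ ψ = 0 → ψ = 0) :
    Nat.card {o : Off k Q V₁ V₂ // ∀ ψ, off x₁ y₁ x₂ y₂ o.1 o.2 ψ = 0} * Nat.card (Psi k V₁ V₂)
      = Nat.card (Off k Q V₁ V₂) := by
  classical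
  have h1 := card_perp (k := k) (offPair (k := k) (Q := Q) (V₁ := V₁) (V₂ := V₂)) offPair_bijective
    (comm x₁ y₁ x₂ y₂)
  simp only [off_eq]
  rw [h1]
  have h2 : Nat.card {m : Psi k V₁ V₂ // comm x₁ y₁ x₂ y₂ m = 0} = 1 := by
    have : Unique {m : Psi k V₁ V₂ // comm x₁ y₁ x₂ y₂ m = 0} := by
      refine ⟨⟨⟨0, map_zero _⟩⟩, ?_⟩
      rintro ⟨ψ, hψ⟩
      apply Subtype.ext
      exact h ψ hψ
    exact Nat.card_unique
  rw [h2, one_mul]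

theorem card_stdT (c : Option I → ℤ) :
    Nat.card {p : Rep k Q (fun j => V₁ j × V₂ j) × Red k Q (fun j => V₁ j × V₂ j) //
        MuZero p.1 p.2 ∧ Tp c p.1 p.2 (K1 k V₁ V₂)} * Nat.card (Psi k V₁ V₂)
      = Nat.card (TT k Q c V₁) * Nat.card (FF k Q c V₂) * Nat.card (Off k Q V₁ V₂) := by
  classical
  let f : (Σ q : TT k Q c V₁ × FF k Q c V₂,
      {o : Off k Q V₁ V₂ // ∀ ψ, off q.1.1.1 q.1.1.2 q.2.1.1 q.2.1.2 o.1 o.2 ψ = 0}) →
      {p : Rep k Q (fun j => V₁ j × V₂ j) × Red k Q (fun j => V₁ j × V₂ j) //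
        MuZero p.1 p.2 ∧ Tp c p.1 p.2 (K1 k V₁ V₂)} := fun t =>
    ⟨(upR t.1.1.1.1 t.2.1.1 t.1.2.1.1, upD t.1.1.1.2 t.2.1.2 t.1.2.1.2),
      (muZero_up _ _ _ _ _ _).2 ⟨t.1.1.2.1, t.1.2.2.1, t.2.2⟩,
      (tau_up_iff c _ _ _ _ t.2.1).2 ⟨t.1.1.2.2, t.1.2.2.2⟩⟩
  have hf : Function.Bijective f := by
    constructor
    · rintro ⟨⟨⟨⟨x₁, y₁⟩, h1⟩, ⟨⟨x₂, y₂⟩, h2⟩⟩, ⟨⟨o1, o2⟩, h3⟩⟩
        ⟨⟨⟨⟨x₁', y₁'⟩, h1'⟩, ⟨⟨x₂', y₂'⟩, h2'⟩⟩, ⟨⟨o1', o2'⟩, h3'⟩⟩ h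
      have e1 := congrArg (fun p => p.1.1) h
      have e2 := congrArg (fun p => p.1.2) h
      obtain ⟨rfl, rfl, rfl⟩ := upR_inj e1
      obtain ⟨rfl, rfl, rfl⟩ := upD_inj e2
      rfl
    · rintro ⟨⟨x, y⟩, h1, h2⟩
      have hK : Sb x y (K1 k V₁ V₂) := h2.1
      have hx := eq_upR hK.1
      have hy := eq_upD hK.2
      simp only at h1 h2
      generalize (fun a => fst k _ _ ∘ₗ x a ∘ₗ inl k _ _ : Rep k Q V₁) = x₁ at hx
      generalize (fun a => fst k _ _ ∘ₗ x a ∘ₗ inr k _ _ :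
        ∀ a : E, V₂ (some (Q.src a)) →ₗ[k] V₁ (Q.tgt a)) = x₁₂ at hx
      generalize (fun a => snd k _ _ ∘ₗ x a ∘ₗ inr k _ _ : Rep k Q V₂) = x₂ at hx
      generalize (fun a => fst k _ _ ∘ₗ y a ∘ₗ inl k _ _ : Red k Q V₁) = y₁ at hy
      generalize (fun a => fst k _ _ ∘ₗ y a ∘ₗ inr k _ _ :
        ∀ a : E, V₂ (Q.tgt a) →ₗ[k] V₁ (some (Q.src a))) = y₁₂ at hy
      generalize (fun a => snd k _ _ ∘ₗ y a ∘ₗ inr k _ _ : Red k Q V₂) = y₂ at hy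
      subst hx hy
      have h3 := (muZero_up _ _ _ _ _ _).1 h1
      have h4 := (tau_up_iff c _ _ _ _ (x₁₂, y₁₂)).1 h2
      exact ⟨⟨(⟨(x₁, y₁), h3.1, h4.1⟩, ⟨(x₂, y₂), h3.2.1, h4.2⟩), ⟨(x₁₂, y₁₂), h3.2.2⟩⟩, rfl⟩
  rw [← Nat.card_congr (Equiv.ofBijective f hf)]
  have : Fintype (TT k Q c V₁ × FF k Q c V₂) := Fintype.ofFinite _
  rw [Nat.card_sigma, Finset.sum_mul]
  have h5 : ∀ q : TT k Q c V₁ × FF k Q c V₂,
      Nat.card {o : Off k Q V₁ V₂ // ∀ ψ, off q.1.1.1 q.1.1.2 q.2.1.1 q.2.1.2 o.1 o.2 ψ = 0}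
        * Nat.card (Psi k V₁ V₂) = Nat.card (Off k Q V₁ V₂) := fun q =>
    card_off' q.1.1.1 q.1.1.2 (comm_eq_zero' c q.1.2.2 q.2.2.2)
  rw [Finset.sum_congr rfl fun q _ => h5 q, Finset.sum_const, smul_eq_mul, Finset.card_univ,
    ← Nat.card_eq_fintype_card, Nat.card_prod]

end Vale.Agent.P291.N3
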