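import Vale.Agent.P291.H415.N3.Std

/-!
# N6: the torsion part of a representation for a linear stability function
-/

namespace Vale.Agent.P291.N3

set_option linter.unusedSectionVars false

open LinearMap

variable {k : Type*} [Field k]
variable {I E : Type*} [Fintype E] [Fintype I] {Q : Qv I E}

section defs

variable {V : Option I → Type*} [∀ j, AddCommGroup (V j)] [∀ j, Module k (V j)]

/-- invariant graded subspaces -/
def Sb (x : Rep k Q V) (y : Red k Q V) (U : ∀ j, Submodule k (V j)) : Prop :=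
  (∀ a, ∀ u ∈ U (some (Q.src a)), x a u ∈ U (Q.tgt a)) ∧
    ∀ a, ∀ u ∈ U (Q.tgt a), y a u ∈ U (some (Q.src a))

/-- the value of the stability function -/
noncomputable def th (c : Option I → ℤ) (U : ∀ j, Submodule k (V j)) : ℤ :=
  ∑ j, c j * (Module.finrank k (U j) : ℤ)

/-- `U` is the smallest invariant subspace at which the stability function is minimal -/
def Tp (c : Option I → ℤ) (x : Rep k Q V) (y : Red k Q V) (U : ∀ j, Submodule k (V j)) : Prop :=
  Sb x y U ∧ ∀ U', Sb x y U' → th c U ≤ th c U' ∧ (th c U' = th c U → ∀ j, U j ≤ U' j)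

theorem Tp_unique {c : Option I → ℤ} {x : Rep k Q V} {y : Red k Q V}
    {U U' : ∀ j, Submodule k (V j)} (h : Tp c x y U) (h' : Tp c x y U') : U = U' := by
  have h1 := (h.2 U' h'.1).1
  have h2 := (h'.2 U h.1).1
  funext j
  exact le_antisymm ((h.2 U' h'.1).2 (le_antisymm h2 h1) j)
    ((h'.2 U h.1).2 (le_antisymm h1 h2) j)

theorem Sb_bot (x : Rep k Q V) (y : Red k Q V) : Sb x y (fun _ => ⊥) := by
  refine ⟨fun a u hu => ?_, fun a u hu => ?_⟩
  · rw [Submodule.mem_bot] at hu ⊢
    rw [hu, map_zero]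
  · rw [Submodule.mem_bot] at hu ⊢
    rw [hu, map_zero]

theorem Sb_top (x : Rep k Q V) (y : Red k Q V) : Sb x y (fun _ => ⊤) :=
  ⟨fun _ _ _ => Submodule.mem_top, fun _ _ _ => Submodule.mem_top⟩

theorem Sb_inf {x : Rep k Q V} {y : Red k Q V} {U U' : ∀ j, Submodule k (V j)} (h : Sb x y U)
    (h' : Sb x y U') : Sb x y (fun j => U j ⊓ U' j) :=
  ⟨fun a u hu => ⟨h.1 a u hu.1, h'.1 a u hu.2⟩, fun a u hu => ⟨h.2 a u hu.1, h'.2 a u hu.2⟩⟩

theorem Sb_sup {x : Rep k Q V} {y : Red k Q V} {U U' : ∀ j, Submodule k (V j)} (h : Sb x y U)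
    (h' : Sb x y U') : Sb x y (fun j => U j ⊔ U' j) := by
  refine ⟨fun a u hu => ?_, fun a u hu => ?_⟩
  · obtain ⟨v, hv, w, hw, rfl⟩ := Submodule.mem_sup.1 hu
    rw [map_add]
    exact Submodule.add_mem_sup (h.1 a v hv) (h'.1 a w hw)
  · obtain ⟨v, hv, w, hw, rfl⟩ := Submodule.mem_sup.1 hu
    rw [map_add]
    exact Submodule.add_mem_sup (h.2 a v hv) (h'.2 a w hw)

theorem th_bot (c : Option I → ℤ) : th c (fun j => (⊥ : Submodule k (V j))) = 0 := by
  simp [th]

variable [∀ j, Module.Finite k (V j)]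

theorem th_modular (c : Option I → ℤ) (U U' : ∀ j, Submodule k (V j)) :
    th c (fun j => U j ⊔ U' j) + th c (fun j => U j ⊓ U' j) = th c U + th c U' := by
  unfold th
  rw [← Finset.sum_add_distrib, ← Finset.sum_add_distrib]
  refine Finset.sum_congr rfl fun j _ => ?_
  have h := Submodule.finrank_sup_add_finrank_inf_eq (U j) (U' j)
  have h' : (Module.finrank k ↥(U j ⊔ U' j) : ℤ) + Module.finrank k ↥(U j ⊓ U' j)
      = Module.finrank k (U j) + Module.finrank k (U' j) := by exact_mod_cast h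
  rw [← mul_add, ← mul_add, h']

theorem exists_Tp (c : Option I → ℤ) (x : Rep k Q V) (y : Red k Q V) : ∃ U, Tp c x y U := by
  let N : ℤ := ∑ j, (Module.finrank k (V j) : ℤ)
  let c' : Option I → ℤ := fun j => c j * (N + 1) + 1
  let tot : (∀ j, Submodule k (V j)) → ℤ := fun U => ∑ j, (Module.finrank k (U j) : ℤ)
  have hth : ∀ U : ∀ j, Submodule k (V j), th c' U = th c U * (N + 1) + tot U := by
    intro U
    simp only [th, tot, c']
    rw [Finset.sum_mul, ← Finset.sum_add_distrib]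
    exact Finset.sum_congr rfl fun j _ => by ring
  have htot : ∀ U : ∀ j, Submodule k (V j), 0 ≤ tot U ∧ tot U ≤ N := by
    intro U
    refine ⟨Finset.sum_nonneg fun j _ => Nat.cast_nonneg _, Finset.sum_le_sum fun j _ => ?_⟩
    exact_mod_cast Submodule.finrank_le (U j)
  obtain ⟨m, ⟨U, hU, rfl⟩, hmin⟩ := Int.exists_least_of_bdd
    (P := fun z => ∃ U : ∀ j, Submodule k (V j), Sb x y U ∧ th c' U = z)
    ⟨-∑ j, |c' j| * (Module.finrank k (V j) : ℤ), by
      rintro z ⟨U, _, rfl⟩
      rw [← Finset.sum_neg_distrib]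
      refine Finset.sum_le_sum fun j _ => ?_
      have h1 : (Module.finrank k (U j) : ℤ) ≤ Module.finrank k (V j) := by
        exact_mod_cast Submodule.finrank_le (U j)
      have h2 := neg_abs_le (c' j)
      have h3 := abs_nonneg (c' j)
      have h4 : (0 : ℤ) ≤ Module.finrank k (U j) := Nat.cast_nonneg _
      nlinarith⟩ ⟨_, _, Sb_bot x y, rfl⟩
  refine ⟨U, hU, fun U' hU' => ⟨?_, fun he => ?_⟩⟩
  · have h1 := hmin _ ⟨U', hU', rfl⟩
    rw [hth, hth] at h1
    have h2 := htot U
    have h3 := htot U'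
    by_contra hlt
    push Not at hlt
    have h4 : th c U' + 1 ≤ th c U := hlt
    nlinarith
  · -- values at the intersection
    have hge : ∀ U', Sb x y U' → th c U ≤ th c U' := by
      intro U' hU'
      have h1 := hmin _ ⟨U', hU', rfl⟩
      rw [hth, hth] at h1
      have h2 := htot U
      have h3 := htot U'
      by_contra hlt
      push Not at hlt
      have h4 : th c U' + 1 ≤ th c U := hlt
      nlinarith
    have h1 := th_modular c U U'
    have h2 := hge _ (Sb_inf hU hU')
    have h3 := hge _ (Sb_sup hU hU')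
    have h4 : th c (fun j => U j ⊓ U' j) = th c U := by linarith
    have h5 := hmin _ ⟨_, Sb_inf hU hU', rfl⟩
    rw [hth, hth, h4] at h5
    have h6 : tot U ≤ tot (fun j => U j ⊓ U' j) := by linarith
    have h7 : ∀ j ∈ Finset.univ, (Module.finrank k ↥(U j ⊓ U' j) : ℤ) ≤ Module.finrank k (U j) := by
      intro j _
      exact_mod_cast Submodule.finrank_mono inf_le_left
    have h8 := (Finset.sum_eq_sum_iff_of_le h7).1 (le_antisymm (Finset.sum_le_sum h7) h6)
    intro j
    have h9 : Module.finrank k ↥(U j ⊓ U' j) = Module.finrank k (U j) := by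
      exact_mod_cast h8 j (Finset.mem_univ j)
    have h10 : U j ⊓ U' j = U j := Submodule.eq_of_le_of_finrank_eq inf_le_left h9
    rw [← h10]
    exact inf_le_right

/-- the torsion part -/
noncomputable def tau (c : Option I → ℤ) (x : Rep k Q V) (y : Red k Q V) :
    ∀ j, Submodule k (V j) := Classical.choose (exists_Tp c x y)

theorem tau_spec (c : Option I → ℤ) (x : Rep k Q V) (y : Red k Q V) : Tp c x y (tau c x y) :=
  Classical.choose_spec (exists_Tp c x y)

theorem tau_eq_iff {c : Option I → ℤ} {x : Rep k Q V} {y : Red k Q V}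
    {U : ∀ j, Submodule k (V j)} : tau c x y = U ↔ Tp c x y U :=
  ⟨fun h => h ▸ tau_spec c x y, fun h => Tp_unique (tau_spec c x y) h⟩

end defs

section transport

variable {V V' : Option I → Type*} [∀ j, AddCommGroup (V j)] [∀ j, Module k (V j)]
  [∀ j, AddCommGroup (V' j)] [∀ j, Module k (V' j)]

theorem Sb_transport (φ : ∀ j, V j ≃ₗ[k] V' j) {x : Rep k Q V} {y : Red k Q V}
    {U : ∀ j, Submodule k (V j)} (h : Sb x y U) :
    Sb (repE φ x) (redE φ y) (fun j => (U j).map (φ j).toLinearMap) := by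
  obtain ⟨h2, h3⟩ := h
  refine ⟨?_, ?_⟩
  · rintro a _ ⟨u, hu, rfl⟩
    refine ⟨x a u, h2 a u hu, ?_⟩
    simp [repE_apply]
  · rintro a _ ⟨u, hu, rfl⟩
    refine ⟨y a u, h3 a u hu, ?_⟩
    simp [redE_apply]

theorem th_transport (c : Option I → ℤ) (φ : ∀ j, V j ≃ₗ[k] V' j) (U : ∀ j, Submodule k (V j)) :
    th c (fun j => (U j).map (φ j).toLinearMap) = th c U := by
  unfold th
  refine Finset.sum_congr rfl fun j _ => ?_
  rw [LinearEquiv.finrank_map_eq (φ j) (U j)]

theorem Tp_transport (c : Option I → ℤ) (φ : ∀ j, V j ≃ₗ[k] V' j) {x : Rep k Q V}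
    {y : Red k Q V} {U : ∀ j, Submodule k (V j)} (h : Tp c x y U) :
    Tp c (repE φ x) (redE φ y) (fun j => (U j).map (φ j).toLinearMap) := by
  refine ⟨Sb_transport φ h.1, fun U' hU' => ?_⟩
  have h1 := Sb_transport (fun j => (φ j).symm) hU'
  rw [repE_symm, redE_symm] at h1
  obtain ⟨h2, h3⟩ := h.2 _ h1
  rw [th_transport c (fun j => (φ j).symm) U'] at h2 h3
  rw [th_transport]
  refine ⟨h2, fun he j => ?_⟩
  have h4 := h3 he j
  rintro _ ⟨u, hu, rfl⟩
  obtain ⟨u', hu', he'⟩ := h4 hu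
  have : φ j u = u' := by
    rw [← he']; simp
  show φ j u ∈ U' j
  rw [this]
  exact hu'

variable [∀ j, Module.Finite k (V j)] [∀ j, Module.Finite k (V' j)]

theorem tau_transport (c : Option I → ℤ) (φ : ∀ j, V j ≃ₗ[k] V' j) (x : Rep k Q V)
    (y : Red k Q V) (j : Option I) :
    tau c (repE φ x) (redE φ y) j = (tau c x y j).map (φ j).toLinearMap :=
  congrFun (tau_eq_iff.2 (Tp_transport c φ (tau_spec c x y))) j

end transport

end Vale.Agent.P291.N3
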